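import Vale.Agent.P281.H303.TE.Cover

/-!
# P281, project T-E (helper303): the condition on the finite étale coverings of the fibres
-/

open Set Filter Metric Vale.Agent.P281 Vale.Agent.P281.H713
open Vale.Agent.P272.K (Chart IsKahler IsHermitian)
open Vale.Agent.P281.MF Vale.Agent.P281.ISO
open Vale.Agent.P281.H713.TZ Vale.Agent.P281.H64
open Vale.Agent.P281.H64.Gen
open Vale.Agent.P281.H64.Thin (IsThinSet)
open scoped Topology ContDiff Manifold

set_option linter.all false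

noncomputable section

namespace Vale.Agent.P281.H303.TE

open Vale.Agent.P281.H303.UF

/-- `π : F' → F` is a finite étale covering by a compact connected manifold -/
structure IsCover (d : ℕ) {F' F : Type} [TopologicalSpace F'] [ChartedSpace (Cm d) F']
    [TopologicalSpace F] [ChartedSpace (Cm d) F] (π : F' → F) : Prop where
  compact : CompactSpace F'
  connected : ConnectedSpace F'
  hausdorff : T2Space F'
  manifold : IsManifold 𝓘(ℂ, Cm d) ω F'
  hol : ContMDiff 𝓘(ℂ, Cm d) 𝓘(ℂ, Cm d) ω π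
  etale : ∀ t, Function.Injective (mfderiv 𝓘(ℂ, Cm d) 𝓘(ℂ, Cm d) π t)

section Cover

variable {n p d : ℕ} {X Y F F' : Type} [TopologicalSpace X] [ChartedSpace (Cm n) X]
    [TopologicalSpace Y] [ChartedSpace (Cm p) Y]
    [TopologicalSpace F] [ChartedSpace (Cm d) F] [TopologicalSpace F'] [ChartedSpace (Cm d) F']

theorem IsCover.det {π : F' → F} (h : IsCover d π) (t : F') :
    (dM (Cm d) (Cm d) π t).det ≠ 0 :=
  ISO.det_ne_of_inj (h.etale t)

theorem IsCover.surj [IsManifold 𝓘(ℂ, Cm d) ω F] [T2Space F] [ConnectedSpace F] {π : F' → F}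
    (h : IsCover d π) : Function.Surjective π := by
  have := h.compact
  have := h.connected
  have := h.manifold
  have h1 : IsOpen (range π) := by
    rw [isOpen_iff_mem_nhds]
    rintro _ ⟨z, rfl⟩
    have h2 := H308.Bir.nhds_le_map (h.hol z) (H308.Bir.bij_of_det_ne (h.det z))
    refine h2 ?_
    rw [mem_map]
    exact Filter.univ_mem' fun w => mem_range_self w
  have h2 : IsClosed (range π) := (isCompact_range h.hol.continuous).isClosed
  rcases isClopen_iff.1 ⟨h2, h1⟩ with h3 | h3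
  · obtain ⟨z⟩ : Nonempty F' := inferInstance
    exact absurd h3 (range_nonempty π).ne_empty
  · exact range_eq_univ.1 h3

/-- the coverings of the fibres are fibres in the sense of `IsFibre` -/
theorem IsCover.fibre [IsManifold 𝓘(ℂ, Cm n) ω X] {f : X → Y} {y : Y} {i : F → X} {π : F' → F}
    (h : IsCover d π) (hi : H511.Surf.IsFibre (Cm n) (Cm d) f y i) :
    H511.Surf.IsFibre (Cm n) (Cm d) f y (fun t => i (π t)) := by
  have := h.manifold
  have := hi.manifold
  refine ⟨h.compact, h.connected, h.manifold, hi.hol.comp h.hol, fun t => ?_,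
    fun t => hi.fibre (π t)⟩
  have h1 : mfderiv 𝓘(ℂ, Cm d) 𝓘(ℂ, Cm n) (i ∘ π) t =
      (mfderiv 𝓘(ℂ, Cm d) 𝓘(ℂ, Cm n) i (π t)).comp
        (mfderiv 𝓘(ℂ, Cm d) 𝓘(ℂ, Cm d) π t) :=
    mfderiv_comp t ((hi.hol (π t)).mdifferentiableAt (by simp))
      ((h.hol t).mdifferentiableAt (by simp))
  have h2 : (fun t => i (π t)) = i ∘ π := rfl
  rw [h2, h1]
  exact (hi.immersion (π t)).comp (h.etale t)

theorem IsCover.kod [IsManifold 𝓘(ℂ, Cm d) ω F] [T2Space F] [ConnectedSpace F] {i : F → X}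
    {π : F' → F} (h : IsCover d π) (Δ : Set X → ℝ) :
    TZ.S.kodR (Cm n) (Cm d) i Δ ≤ TZ.S.kodR (Cm n) (Cm d) (fun t => i (π t)) Δ := by
  have := h.manifold
  exact kodR_cover (fun t => h.hol t) h.det h.surj Δ

/-- the identity is a covering -/
theorem isCover_id [CompactSpace F] [ConnectedSpace F] [T2Space F] [IsManifold 𝓘(ℂ, Cm d) ω F] :
    IsCover d (id : F → F) := by
  refine ⟨inferInstance, inferInstance, inferInstance, inferInstance, contMDiff_id, fun t => ?_⟩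
  rw [mfderiv_id]
  exact fun a b h => h

/-- the condition: `F` has a finite étale covering `F'` such that the Gauss map of `F'` has rank
`d`, or `F'` is immersed in a torus and `Δ` does not meet `F`, or the rank is at least
`κ(F, K_F + Δ|F)` -/
def CondE (n d : ℕ) {X F : Type} [TopologicalSpace X] [ChartedSpace (Cm n) X]
    [TopologicalSpace F] [ChartedSpace (Cm d) F] (i : F → X) (Δ : Set X → ℝ) : Prop :=
  ∃ (F' : Type) (_ : TopologicalSpace F') (_ : ChartedSpace (Cm d) F') (π : F' → F),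
    IsCover d π ∧ (TK.GaussRank d F' d ∨ (TU.IsGen d F' ∧ ∀ D, Δ D ≠ 0 → ∀ t, i t ∉ D) ∨
      ∃ r : ℕ, TK.GaussRank d F' r ∧ TZ.S.kodR (Cm n) (Cm d) i Δ ≤ ((r : ℕ∞) : WithBot ℕ∞))

theorem cond_to [CompactSpace F] [ConnectedSpace F] [T2Space F] [IsManifold 𝓘(ℂ, Cm d) ω F]
    {i : F → X} {Δ : Set X → ℝ} (h : Cond n d i Δ) : CondE n d i Δ :=
  ⟨F, inferInstance, inferInstance, id, isCover_id, h⟩

theorem condE_rank [IsManifold 𝓘(ℂ, Cm n) ω X] {f : X → Y} {y : Y} [T2Space F] {i : F → X}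
    {Δ : Set X → ℝ} (hd : 0 < d) (hi : H511.Surf.IsFibre (Cm n) (Cm d) f y i)
    (h : CondE n d i Δ) :
    ∃ (F' : Type) (_ : TopologicalSpace F') (_ : T2Space F') (_ : ChartedSpace (Cm d) F')
      (i' : F' → X) (r : ℕ), H511.Surf.IsFibre (Cm n) (Cm d) f y i' ∧ TK.GaussRank d F' r ∧
      TZ.S.kodR (Cm n) (Cm d) i Δ ≤ ((r : ℕ∞) : WithBot ℕ∞) := by
  obtain ⟨F', _, _, π, hπ, h⟩ := h
  have := hi.manifold
  have := hi.compact
  have := hi.connected
  have h1 := hπ.fibre hi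
  have := h1.manifold
  have := h1.compact
  have := h1.connected
  rcases h with h | ⟨hg, hΔ⟩ | ⟨r, h2, h3⟩
  · exact ⟨F', _, hπ.hausdorff, _, _, d, h1, h, kodR_le i Δ⟩
  · obtain ⟨r, h2, h3⟩ := cond_rank (i := fun t => i (π t)) (Δ := Δ) hd h1.hol
      (Or.inr (Or.inl ⟨hg, fun D hD t => hΔ D hD (π t)⟩))
    exact ⟨F', _, hπ.hausdorff, _, _, r, h1, h2, (hπ.kod Δ).trans h3⟩
  · exact ⟨F', _, hπ.hausdorff, _, _, r, h1, h2, h3⟩

/-- from one `r` to all `r`, and to Q1 -/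
theorem all_e {f : X → Y} {Δ : Set X → ℝ} (hd : 0 < d)
    (hf : H511.Surf.IsFibration (Cm n) (Cm p) f Δ) {a b : WithBot ℕ∞}
    (h : ∀ r : ℕ, ∃ H : ℕ → Set Y, (∀ k, IsThinSet (Cm p) (H k)) ∧ ∀ y, (∀ k, y ∉ H k) →
      ∀ (F : Type) [TopologicalSpace F] [T2Space F] [ChartedSpace (Cm d) F] (i : F → X),
        H511.Surf.IsFibre (Cm n) (Cm d) f y i → TK.GaussRank d F r →
        ((r : ℕ∞) : WithBot ℕ∞) + a ≤ b) :
    ∃ H : ℕ → Set Y, (∀ k, IsThinSet (Cm p) (H k)) ∧ ∀ y, (∀ k, y ∉ H k) →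
      ∀ (F : Type) [TopologicalSpace F] [T2Space F] [ChartedSpace (Cm d) F] (i : F → X),
        H511.Surf.IsFibre (Cm n) (Cm d) f y i →
        (∀ r : ℕ, TK.GaussRank d F r → ((r : ℕ∞) : WithBot ℕ∞) + a ≤ b) ∧
        (CondE n d i Δ → TZ.S.kodR (Cm n) (Cm d) i Δ + a ≤ b) := by
  choose H hH hmain using h
  refine ⟨fun k => H k.unpair.1 k.unpair.2, fun k => hH _ _, fun y hy => ?_⟩
  have := hf.manifold.1
  have hall : ∀ (F : Type) [TopologicalSpace F] [T2Space F] [ChartedSpace (Cm d) F] (i : F → X),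
      H511.Surf.IsFibre (Cm n) (Cm d) f y i → ∀ r : ℕ, TK.GaussRank d F r →
      ((r : ℕ∞) : WithBot ℕ∞) + a ≤ b := by
    intro F _ _ _ i hi r hr
    refine hmain r y (fun k => ?_) F i hi hr
    have h3 := hy (Nat.pair r k)
    simpa using h3
  intro F _ _ _ i hi
  refine ⟨hall F i hi, fun hc => ?_⟩
  obtain ⟨F', _, _, _, i', r, h1, h2, h3⟩ := condE_rank hd hi hc
  exact (add_le_add h3 le_rfl).trans (hall F' i' h1 r h2)

end Cover

end Vale.Agent.P281.H303.TE
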