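import Vale.Agent.P281.H303.TE.Core
import Vale.Agent.P281.H303.TE.Cond
import Vale.Agent.P281.H364.Gen.NeatD

/-!
# P281, project T-E (helper303): arbitrary Kähler models
-/

open Set Filter Metric Vale.Agent.P281 Vale.Agent.P281.H713
open Vale.Agent.P272.K (Chart IsKahler IsHermitian)
open Vale.Agent.P281.MF Vale.Agent.P281.ISO
open Vale.Agent.P281.H713.TZ Vale.Agent.P281.H64
open Vale.Agent.P281.H64.Gen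
open Vale.Agent.P281.H64.Thin (IsThinSet)
open scoped Topology ContDiff Manifold

set_option linter.all false

noncomputable section

namespace Vale.Agent.P281.H303.TE

open Vale.Agent.P281.H303.UF

/-- `κ(X₁, K + Δ₁) ≤ κ(X, K + Δ)` for a step -/
theorem kodX_step (bir : BirStmt) (push : PushStmt) {n p : ℕ}
    {X Y X₁ Y₁ : Type} [tX : TopologicalSpace X] [cX : ChartedSpace (Cm n) X]
    [tY : TopologicalSpace Y] [cY : ChartedSpace (Cm p) Y] [tX₁ : TopologicalSpace X₁]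
    [cX₁ : ChartedSpace (Cm n) X₁] [tY₁ : TopologicalSpace Y₁] [cY₁ : ChartedSpace (Cm p) Y₁]
    {f : X → Y} {Δ : Set X → ℝ} {f₁ : X₁ → Y₁} {Δ₁ : Set X₁ → ℝ} (hX : CompactSpace X)
    (hs : TZ.S.IsStep (Cm n) (Cm p) f₁ Δ₁ f Δ) :
    TZ.S.kodX (Cm n) Δ₁ ≤ TZ.S.kodX (Cm n) Δ := by
  obtain ⟨u, v, hu, -, -, -, -, hΔ, hΔ₁, hpush, -⟩ := hs
  refine bir n X X₁ u Δ Δ₁ hu hΔ hΔ₁ fun D hD => ?_
  have hD' : J.IsPrime (Cm n) D := hΔ₁.2.1 D hD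
  by_cases hex : D ⊆ excSet (Cm n) u
  · exact Or.inl hex
  · have hP := push n X X₁ u D hu hD' hex
    exact Or.inr ⟨hP, hpush D hD' hP⟩

/-- `κ(f | Δ) ≤ kodF f₁ Δ₁` for a neat model `f₁` -/
theorem kap_step (hB0 : BaseStmt) (hB : Base1Stmt) (hC : CritStmt) (hK : ComplStmt)
    (hO : H364.Gen.CompStmt) {n p : ℕ}
    {X Y X₁ Y₁ : Type} [tX : TopologicalSpace X] [cX : ChartedSpace (Cm n) X]
    [tY : TopologicalSpace Y] [cY : ChartedSpace (Cm p) Y] [tX₁ : TopologicalSpace X₁]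
    [cX₁ : ChartedSpace (Cm n) X₁] [tY₁ : TopologicalSpace Y₁] [cY₁ : ChartedSpace (Cm p) Y₁]
    {f : X → Y} {Δ : Set X → ℝ} {f₁ : X₁ → Y₁} {Δ₁ : Set X₁ → ℝ}
    (h₁ : H511.Surf.IsFibration (Cm n) (Cm p) f₁ Δ₁)
    (hs : TZ.S.IsStep (Cm n) (Cm p) f₁ Δ₁ f Δ)
    (he : NoExc (Cm n) (Cm p) f₁ ∨ ExcOne (Cm n) (Cm p) f₁ Δ₁) :
    TZ.S.kap (Cm n) (Cm p) ⟨X, Y, tX, tY, cX, cY, f, Δ⟩ ≤
      TZ.S.kodF n p Δ₁ (id : X₁ → X₁) f₁ := by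
  have hk := H364.Gen.kapLe_of hC hK hO h₁
  obtain ⟨⟨_, _⟩, _, _, ⟨_, _⟩, hf₁, hc₁, hΔ₁⟩ := h₁
  have hlink : TZ.S.Linked (Cm n) (Cm p) ⟨X, Y, tX, tY, cX, cY, f, Δ⟩
      ⟨X₁, Y₁, tX₁, tY₁, cX₁, cY₁, f₁, Δ₁⟩ := .symm _ _ (.rel _ _ hs)
  have hg : ∃ Γ : Set Y₁ → ℝ, Γ = TZ.S.base (Cm n) (Cm p) f₁ Δ₁ ∧
      ({G | Γ G ≠ 0}.Finite ∧ (∀ G, Γ G ≠ 0 → J.IsPrime (Cm p) G) ∧
      (∀ G, ∃ q : ℚ, Γ G = q ∧ 0 ≤ q ∧ q ≤ 1) ∧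
      (∀ z G, Γ G ≠ 0 → f₁ z ∈ G →
        z ∈ closure {z' | (∃ G, Γ G ≠ 0 ∧ f₁ z' ∈ G) ∧
          ∀ᶠ y in 𝓝 (f₁ z'), TZ.S.SNCAt (Cm p) Γ y}) ∧
      TZ.S.OrbMor (Cm n) (Cm p) f₁ Δ₁ Γ) := by
    rcases he with he | he
    · exact ⟨_, rfl, hB0 n p X₁ Y₁ f₁ Δ₁ hf₁ hc₁ hΔ₁ he _ rfl⟩
    · exact ⟨_, rfl, hB n p X₁ Y₁ f₁ Δ₁ hf₁ hc₁ hΔ₁ he _ rfl⟩
  obtain ⟨Γ, hΓ, g1, g2, g3, g4, g5⟩ := hg
  exact (hk _ g1 g2 g3 g4 g5).2 _ X₁ tX₁ cX₁ f₁ Δ₁ hlink hΓ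

/-- **T-E** with an arbitrary Kähler model `f₁` of `f`: `r + kodF f₁ Δ₁ ≤ κ(X, K_X + Δ)` and
`κ(F, K_F + Δ|F) + kodF f₁ Δ₁ ≤ κ(X, K_X + Δ)` -/
theorem teS (deg : TK.TE.DegEStmt) (ab : TK.ABStmt) (coreS : TK.TE.CoreStmt)
    (fibE : TK.TE.FibEStmt) (gen : TK.GenNStmt) (img : TK.ImgNStmt) (exc : ExcStmt)
    (crit : CritStmt) (compl : ComplStmt) (bir : BirStmt) (push : PushStmt)
    (alb : TK.TE.AlbEStmt) (has : TK.TE.HasMStmt) (lift : TU.LiftTStmt) (tame : TU.TameOKStmt)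
    {p d : ℕ} {X Y X₁ Y₁ : Type} [TopologicalSpace X]
    [ChartedSpace (Cm (p + d)) X] [TopologicalSpace Y] [ChartedSpace (Cm p) Y]
    [TopologicalSpace X₁] [ChartedSpace (Cm (p + d)) X₁] [TopologicalSpace Y₁]
    [ChartedSpace (Cm p) Y₁] (f : X → Y) (Δ : Set X → ℝ) (f₁ : X₁ → Y₁) (Δ₁ : Set X₁ → ℝ)
    (hd : 0 < d) (h : H511.Surf.IsFibration (Cm (p + d)) (Cm p) f Δ)
    (h₁ : H511.Surf.IsFibration (Cm (p + d)) (Cm p) f₁ Δ₁)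
    (hs : TZ.S.IsStep (Cm (p + d)) (Cm p) f₁ Δ₁ f Δ)
    (hw : ∃ w : Chart (p + d) X₁ → Cm (p + d) → Matrix (Fin (p + d)) (Fin (p + d)) ℂ,
      IsKahler w) :
    ∃ H : ℕ → Set Y, (∀ k, IsThinSet (Cm p) (H k)) ∧ ∀ y, (∀ k, y ∉ H k) →
      ∀ (F : Type) [TopologicalSpace F] [T2Space F] [ChartedSpace (Cm d) F] (i : F → X),
        H511.Surf.IsFibre (Cm (p + d)) (Cm d) f y i →
        (∀ r : ℕ, TK.GaussRank d F r → ((r : ℕ∞) : WithBot ℕ∞) +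
          TZ.S.kodF (p + d) p Δ₁ (id : X₁ → X₁) f₁ ≤ TZ.S.kodX (Cm (p + d)) Δ) ∧
        (CondE (p + d) d i Δ → TZ.S.kodR (Cm (p + d)) (Cm d) i Δ +
          TZ.S.kodF (p + d) p Δ₁ (id : X₁ → X₁) f₁ ≤ TZ.S.kodX (Cm (p + d)) Δ) := by
  obtain ⟨w, hw⟩ := hw
  refine all_e hd h fun r => ?_
  have hs' := hs
  obtain ⟨u, v, hu, hv, hcomm, -⟩ := hs'
  obtain ⟨H, hH, hmain⟩ := core deg ab coreS fibE gen img exc crit compl (r := r) hd h h₁ hu hv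
    hcomm hw fun S' m R hS' hP' hpre hne hN hN' =>
      first_r alb has lift tame hd h₁ hw hS' hP' hpre hne hN hN'
  refine ⟨H, hH, fun y hy F _ _ _ i hi hG => ?_⟩
  exact (hmain y hy F i hi hG).trans (kodX_step bir push h.compact hs)

end Vale.Agent.P281.H303.TE
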