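import Vale.Agent.P281.H303.UF.Fin
import Vale.Agent.P281.H303.TE.Step
import Vale.Agent.P281.H603.TE.Core
import Vale.Agent.P281.H603.TE.AlbE
import Vale.Agent.P281.H969.E.DegE
import Vale.Agent.P281.H511.E.Has
import Vale.Agent.P281.H603.TE.FibE

/-!
# P281, project T-E (helper303): the unconditional theorems
-/

open Set Filter Metric Vale.Agent.P281 Vale.Agent.P281.H713
open Vale.Agent.P272.K (Chart IsKahler IsHermitian)
open Vale.Agent.P281.H713.TZ Vale.Agent.P281.H64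
open Vale.Agent.P281.H64.Gen
open Vale.Agent.P281.H64.Thin (IsThinSet)
open scoped Topology ContDiff Manifold

set_option linter.all false

noncomputable section

namespace Vale.Agent.P281.H303.TE

open Vale.Agent.P281.H303.UF

/-- **E3** -/
theorem albE : TK.TE.AlbEStmt :=
  H603.TE.albE TK.inputs H485.U.tameBound (H485.U.norm1 H864.K.e1)

/-- **E6** -/
theorem fibE : TK.TE.FibEStmt := H603.TE.fibE

/-- **T-E**, with an arbitrary Kähler model `f₁` of `f`: `r + kodF f₁ Δ₁ ≤ κ(X, K_X + Δ)` if the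
Gauss map of a finite étale covering `F` of the very general fibre has rank at least `r`, and
`κ(F, K_F + Δ|F) + kodF f₁ Δ₁ ≤ κ(X, K_X + Δ)` -/
theorem teM {p d : ℕ} {X Y X₁ Y₁ : Type} [TopologicalSpace X]
    [ChartedSpace (Cm (p + d)) X] [TopologicalSpace Y] [ChartedSpace (Cm p) Y]
    [TopologicalSpace X₁] [ChartedSpace (Cm (p + d)) X₁] [TopologicalSpace Y₁]
    [ChartedSpace (Cm p) Y₁] (f : X → Y) (Δ : Set X → ℝ) (f₁ : X₁ → Y₁) (Δ₁ : Set X₁ → ℝ)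
    (hd : 0 < d) (h : H511.Surf.IsFibration (Cm (p + d)) (Cm p) f Δ)
    (h₁ : H511.Surf.IsFibration (Cm (p + d)) (Cm p) f₁ Δ₁)
    (hs : TZ.S.IsStep (Cm (p + d)) (Cm p) f₁ Δ₁ f Δ)
    (hw : ∃ w : Chart (p + d) X₁ → Cm (p + d) → Matrix (Fin (p + d)) (Fin (p + d)) ℂ,
      IsKahler w) :
    ∃ H : ℕ → Set Y, (∀ k, IsThinSet (Cm p) (H k)) ∧ ∀ y, (∀ k, y ∉ H k) →
      ∀ (F : Type) [TopologicalSpace F] [T2Space F] [ChartedSpace (Cm d) F] (i : F → X),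
        H511.Surf.IsFibre (Cm (p + d)) (Cm d) f y i →
        (∀ r : ℕ, TK.GaussRank d F r → ((r : ℕ∞) : WithBot ℕ∞) +
          TZ.S.kodF (p + d) p Δ₁ (id : X₁ → X₁) f₁ ≤ TZ.S.kodX (Cm (p + d)) Δ) ∧
        (CondE (p + d) d i Δ → TZ.S.kodR (Cm (p + d)) (Cm d) i Δ +
          TZ.S.kodF (p + d) p Δ₁ (id : X₁ → X₁) f₁ ≤ TZ.S.kodX (Cm (p + d)) Δ) :=
  teS (H969.E.degE_of_inputs TK.inputs) H152.K.ab H603.TE.coreS fibE H383.KN.genN H383.KN.imgN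
    H737.Gen.exc crit H383.Gen.compl H364.Gen.bir H303.Gen.pushStmt albE H511.E.hasM
    H383.U.liftT H383.U.tameOK f Δ f₁ Δ₁ hd h h₁ hs hw

/-- `κ(f | Δ) ≤ kodF f₁ Δ₁` if `f₁` is a good model of `f` -/
theorem kap_le_model {n p : ℕ} {X Y X₁ Y₁ : Type} [tX : TopologicalSpace X]
    [cX : ChartedSpace (Cm n) X] [tY : TopologicalSpace Y] [cY : ChartedSpace (Cm p) Y]
    [TopologicalSpace X₁] [ChartedSpace (Cm n) X₁] [TopologicalSpace Y₁]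
    [ChartedSpace (Cm p) Y₁] {f : X → Y} {Δ : Set X → ℝ} {f₁ : X₁ → Y₁} {Δ₁ : Set X₁ → ℝ}
    (h₁ : H511.Surf.IsFibration (Cm n) (Cm p) f₁ Δ₁)
    (hs : TZ.S.IsStep (Cm n) (Cm p) f₁ Δ₁ f Δ)
    (he : NoExc (Cm n) (Cm p) f₁ ∨ ExcOne (Cm n) (Cm p) f₁ Δ₁) :
    TZ.S.kap (Cm n) (Cm p) ⟨X, Y, tX, tY, cX, cY, f, Δ⟩ ≤
      TZ.S.kodF n p Δ₁ (id : X₁ → X₁) f₁ :=
  kap_step H364.Gen.base0 H364.Gen.base1 crit H383.Gen.compl H364.Gen.compStmt h₁ hs he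

/-- **T-E** for the fibrations with a good Kähler model: `r + κ(f | Δ) ≤ κ(X, K_X + Δ)`, and Q1 -/
theorem teQ {p d : ℕ} {X Y X₁ Y₁ : Type} [tX : TopologicalSpace X]
    [cX : ChartedSpace (Cm (p + d)) X] [tY : TopologicalSpace Y] [cY : ChartedSpace (Cm p) Y]
    [TopologicalSpace X₁] [ChartedSpace (Cm (p + d)) X₁] [TopologicalSpace Y₁]
    [ChartedSpace (Cm p) Y₁] (f : X → Y) (Δ : Set X → ℝ) (f₁ : X₁ → Y₁) (Δ₁ : Set X₁ → ℝ)
    (hd : 0 < d) (h : H511.Surf.IsFibration (Cm (p + d)) (Cm p) f Δ)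
    (h₁ : H511.Surf.IsFibration (Cm (p + d)) (Cm p) f₁ Δ₁)
    (hs : TZ.S.IsStep (Cm (p + d)) (Cm p) f₁ Δ₁ f Δ)
    (he : NoExc (Cm (p + d)) (Cm p) f₁ ∨ ExcOne (Cm (p + d)) (Cm p) f₁ Δ₁)
    (hw : ∃ w : Chart (p + d) X₁ → Cm (p + d) → Matrix (Fin (p + d)) (Fin (p + d)) ℂ,
      IsKahler w) :
    ∃ H : ℕ → Set Y, (∀ k, IsThinSet (Cm p) (H k)) ∧ ∀ y, (∀ k, y ∉ H k) →
      ∀ (F : Type) [TopologicalSpace F] [T2Space F] [ChartedSpace (Cm d) F] (i : F → X),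
        H511.Surf.IsFibre (Cm (p + d)) (Cm d) f y i →
        (∀ r : ℕ, TK.GaussRank d F r → ((r : ℕ∞) : WithBot ℕ∞) +
          TZ.S.kap (Cm (p + d)) (Cm p) ⟨X, Y, tX, tY, cX, cY, f, Δ⟩ ≤
            TZ.S.kodX (Cm (p + d)) Δ) ∧
        (CondE (p + d) d i Δ → H511.Surf.Q1 (Cm (p + d)) (Cm p) (Cm d) f Δ i) := by
  obtain ⟨H, hH, hmain⟩ := teM f Δ f₁ Δ₁ hd h h₁ hs hw
  have hk := kap_le_model h₁ hs he
  refine ⟨H, hH, fun y hy F _ _ _ i hi => ⟨fun r hr => ?_, fun hc => ?_⟩⟩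
  · exact (add_le_add le_rfl hk).trans ((hmain y hy F i hi).1 r hr)
  · exact (add_le_add le_rfl hk).trans ((hmain y hy F i hi).2 hc)

/-- **T-E**, the first inequality, `X` Kähler -/
theorem teK {p d : ℕ} {X Y : Type} [TopologicalSpace X]
    [ChartedSpace (Cm (p + d)) X] [TopologicalSpace Y] [ChartedSpace (Cm p) Y]
    (f : X → Y) (Δ : Set X → ℝ) (hd : 0 < d)
    (h : H511.Surf.IsFibration (Cm (p + d)) (Cm p) f Δ)
    (hw : ∃ w : Chart (p + d) X → Cm (p + d) → Matrix (Fin (p + d)) (Fin (p + d)) ℂ,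
      IsKahler w) :
    (∃ H : ℕ → Set Y, (∀ k, IsThinSet (Cm p) (H k)) ∧ ∀ y, (∀ k, y ∉ H k) →
      ∀ (F : Type) [TopologicalSpace F] [T2Space F] [ChartedSpace (Cm d) F] (i : F → X),
        H511.Surf.IsFibre (Cm (p + d)) (Cm d) f y i →
        (∀ r : ℕ, TK.GaussRank d F r → ((r : ℕ∞) : WithBot ℕ∞) +
          TZ.S.kodF (p + d) p Δ (id : X → X) f ≤ TZ.S.kodX (Cm (p + d)) Δ) ∧
        (CondE (p + d) d i Δ → TZ.S.kodR (Cm (p + d)) (Cm d) i Δ +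
          TZ.S.kodF (p + d) p Δ (id : X → X) f ≤ TZ.S.kodX (Cm (p + d)) Δ)) ∧
      TZ.S.KapLe (Cm (p + d)) (Cm p) f Δ (TZ.S.kodF (p + d) p Δ (id : X → X) f) := by
  obtain ⟨w, hw⟩ := hw
  exact ⟨all_e hd h fun r => teF (H969.E.degE_of_inputs TK.inputs) H152.K.ab H603.TE.coreS
    fibE H383.KN.genN H383.KN.imgN H737.Gen.exc crit H383.Gen.compl
    albE H511.E.hasM H383.U.liftT H383.U.tameOK hd h hw,
    H364.Gen.kapLe_of crit H383.Gen.compl H364.Gen.compStmt h⟩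

end Vale.Agent.P281.H303.TE
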