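import Vale.Agent.P281.H303.UF.Core
import Vale.Agent.P281.H64.TE.Spec

/-!
# P281, project T-E, block EF (helper303): the assembly
-/

open Set Filter Metric Vale.Agent.P281 Vale.Agent.P281.H713
open Vale.Agent.P272.K (Chart IsKahler IsHermitian)
open Vale.Agent.P281.MF Vale.Agent.P281.ISO
open Vale.Agent.P281.H713.TZ Vale.Agent.P281.H64
open Vale.Agent.P281.H64.Gen
open Vale.Agent.P281.H64.Thin (IsThinSet)
open scoped Topology ContDiff Manifold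

set_option linter.all false

noncomputable section

namespace Vale.Agent.P281.H303.TE

open Vale.Agent.P281.H303.UF

/-- the very general fibres of `f`, as fibres of `f₁` -/
theorem square (gen : TK.GenNStmt) (img : TK.ImgNStmt) (exc : ExcStmt) (crit : CritStmt)
    {p d : ℕ} {X Y X₁ Y₁ : Type} [TopologicalSpace X]
    [ChartedSpace (Cm (p + d)) X] [TopologicalSpace Y] [ChartedSpace (Cm p) Y]
    [TopologicalSpace X₁] [ChartedSpace (Cm (p + d)) X₁] [TopologicalSpace Y₁]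
    [ChartedSpace (Cm p) Y₁] {f : X → Y} {Δ : Set X → ℝ} {f₁ : X₁ → Y₁} {Δ₁ : Set X₁ → ℝ}
    (h : H511.Surf.IsFibration (Cm (p + d)) (Cm p) f Δ)
    (h₁ : H511.Surf.IsFibration (Cm (p + d)) (Cm p) f₁ Δ₁) {u : X₁ → X} {v : Y₁ → Y}
    (hu : TZ.S.IsModif (Cm (p + d)) u) (hv : TZ.S.IsModif (Cm p) v)
    (hcomm : ∀ x, f (u x) = v (f₁ x)) {S' : Set Y₁}
    (hS' : IsSmallSet (Cm p) S') (hP' : IsProperFibration (n := p + d) (p := p) f₁ S') :
    ∃ (S : Set Y) (H : ℕ → Set Y), (∀ k, IsThinSet (Cm p) (H k)) ∧ ∀ y, (∀ k, y ∉ H k) →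
      ∀ (F : Type) [TopologicalSpace F] [ChartedSpace (Cm d) F] (i : F → X),
        H511.Surf.IsFibre (Cm (p + d)) (Cm d) f y i →
        ∃ y₁, TK.TE.IsSquareE (p + d) p d f f₁ u v S S' y y₁ i := by
  have : T2Space X := h.hausdorff.1
  have : T2Space Y := h.hausdorff.2
  have : T2Space X₁ := h₁.hausdorff.1
  have : T2Space Y₁ := h₁.hausdorff.2
  have : CompactSpace X := h.compact
  have : CompactSpace X₁ := h₁.compact
  have : IsManifold 𝓘(ℂ, Cm (p + d)) ω X := h.manifold.1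
  have : IsManifold 𝓘(ℂ, Cm p) ω Y := h.manifold.2
  have : IsManifold 𝓘(ℂ, Cm (p + d)) ω X₁ := h₁.manifold.1
  have : IsManifold 𝓘(ℂ, Cm p) ω Y₁ := h₁.manifold.2
  have : CompactSpace Y := by
    have hsur : Function.Surjective f := fun y => (h.fibres y).nonempty
    exact ⟨by rw [← hsur.range_eq]; exact isCompact_range h.hol.continuous⟩
  have : CompactSpace Y₁ := by
    have hsur : Function.Surjective f₁ := fun y => (h₁.fibres y).nonempty
    exact ⟨by rw [← hsur.range_eq]; exact isCompact_range h₁.hol.continuous⟩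
  have hMv := H349.NF.mod_modif exc hv
  obtain ⟨S, hS, hP⟩ := crit (p + d) p X Y f h.hol h.fibres
  obtain ⟨H₁, hH₁, hsub₁⟩ := hS.2
  obtain ⟨H₁', hH₁', hsub₁'⟩ := hS'.2
  obtain ⟨H₂, hH₂, hmain₂⟩ := gen p d X Y f (u '' excSet (Cm (p + d)) u) h.hol
    (exc (p + d) X X₁ u hu)
  obtain ⟨H₃, hH₃, hsub₃⟩ := img p Y Y₁ v H₁' hv hH₁'
  obtain ⟨K, hK, hKy⟩ := H349.NF.thin_two hH₂ hH₃
  obtain ⟨L, hL, hLy⟩ := H349.NF.thin_two hK hH₁
  refine ⟨S, L, hL, fun y hy F _ _ i hi => ?_⟩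
  obtain ⟨hyK, hyS⟩ := hLy y hy
  obtain ⟨hy₂, hy₃⟩ := hKy y hyK
  have hyv : y ∉ v '' (excSet (Cm p) v ∪ ⋃ k, H₁' k) := by
    intro h1
    obtain ⟨k, hk⟩ := mem_iUnion.1 (hsub₃ h1)
    exact hy₃ k hk
  have hvy : v (H308.Bir.inv hMv y) = y := H308.Bir.u_inv hMv y
  have hyN : v (H308.Bir.inv hMv y) ∉ v '' excSet (Cm p) v := by
    rw [hvy]
    exact fun h1 => hyv (image_mono subset_union_left h1)
  refine ⟨H308.Bir.inv hMv y, hu, hcomm, h.hol, h₁.hol, hP S subset_rfl hS.1, hP', fun hyS' => ?_,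
    fun hyS' => ?_, ?_, hi, hmain₂ y hy₂ F i hi⟩
  · obtain ⟨k, hk⟩ := mem_iUnion.1 (hsub₁ hyS')
    exact hyS k hk
  · obtain ⟨k, hk⟩ := mem_iUnion.1 (hsub₁' hyS')
    exact hyv ⟨_, Or.inr (mem_iUnion.2 ⟨k, hk⟩), hvy⟩
  · ext z
    constructor
    · intro hz
      have hz' : v z = y := hz
      exact (hMv.inj _ _ (hvy.trans hz'.symm) hyN).symm
    · intro hz
      rw [mem_singleton_iff.1 hz]
      exact hvy

/-- the Gauss map has rank at most `d` -/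
theorem ndegE_le {n p d m r : ℕ} {Z Y : Type} [TopologicalSpace Z]
    [ChartedSpace (Cm n) Z] [TopologicalSpace Y] [ChartedSpace (Cm p) Y] {f : Z → Y} {y : Y}
    (h : TK.TE.NDegE n p d m r f y) : r ≤ d := by
  obtain ⟨E, Γ, _, _, _, _, _, _, 𝓕, q, χ, t, ht, _, -, -, i, z, -, h', -, -, hs⟩ := h
  let S := H603.TE.sub (𝓕.at t ht) (H603.TE.core Γ m)
  let L : Cm d →ₗ[ℂ] (Fin r → ℂ) := LinearMap.pi fun k : Fin r =>
    (fderiv ℂ (fun u => S.minor (h' k.succ) i u / S.minor (h' 0) i u) z :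
      Cm d →ₗ[ℂ] ℂ)
  have hL : Function.Surjective L := hs
  have h1 := LinearMap.finrank_le_finrank_of_surjective hL
  rw [Module.finrank_fin_fun] at h1
  exact h1.trans (le_of_eq (Module.finrank_fin_fun ℂ))

/-- the assembly, from the first inequality for `f₁` -/
theorem core (deg : TK.TE.DegEStmt) (ab : TK.ABStmt) (coreS : TK.TE.CoreStmt)
    (fibE : TK.TE.FibEStmt) (gen : TK.GenNStmt) (img : TK.ImgNStmt) (exc : ExcStmt)
    (crit : CritStmt) (compl : ComplStmt)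
    {p d r : ℕ} {X Y X₁ Y₁ : Type} [TopologicalSpace X]
    [ChartedSpace (Cm (p + d)) X] [TopologicalSpace Y] [ChartedSpace (Cm p) Y]
    [TopologicalSpace X₁] [ChartedSpace (Cm (p + d)) X₁] [TopologicalSpace Y₁]
    [ChartedSpace (Cm p) Y₁] {f : X → Y} {Δ : Set X → ℝ} {f₁ : X₁ → Y₁} {Δ₁ : Set X₁ → ℝ}
    (hd : 0 < d) (h : H511.Surf.IsFibration (Cm (p + d)) (Cm p) f Δ)
    (h₁ : H511.Surf.IsFibration (Cm (p + d)) (Cm p) f₁ Δ₁) {u : X₁ → X} {v : Y₁ → Y}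
    (hu : TZ.S.IsModif (Cm (p + d)) u) (hv : TZ.S.IsModif (Cm p) v)
    (hcomm : ∀ x, f (u x) = v (f₁ x))
    {w : Chart (p + d) X₁ → Cm (p + d) → Matrix (Fin (p + d)) (Fin (p + d)) ℂ}
    (hw : IsKahler w)
    (hfirst : ∀ (S' : Set Y₁) (m R : ℕ), IsSmallSet (Cm p) S' →
      IsProperFibration (n := p + d) (p := p) f₁ S' → IsPreconnected S'ᶜ → S'ᶜ.Nonempty →
      (∀ y ∉ S', TK.TE.NDegE (p + d) p d m R f₁ y) →
      (∀ y ∉ S', ¬ TK.TE.NDegE (p + d) p d m (R + 1) f₁ y) →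
      ((R : ℕ∞) : WithBot ℕ∞) + TZ.S.kodF (p + d) p Δ₁ (id : X₁ → X₁) f₁ ≤
        TZ.S.kodX (Cm (p + d)) Δ₁) :
    ∃ H : ℕ → Set Y, (∀ k, IsThinSet (Cm p) (H k)) ∧ ∀ y, (∀ k, y ∉ H k) →
      ∀ (F : Type) [TopologicalSpace F] [T2Space F] [ChartedSpace (Cm d) F] (i : F → X),
        H511.Surf.IsFibre (Cm (p + d)) (Cm d) f y i → TK.GaussRank d F r →
        ((r : ℕ∞) : WithBot ℕ∞) + TZ.S.kodF (p + d) p Δ₁ (id : X₁ → X₁) f₁ ≤
          TZ.S.kodX (Cm (p + d)) Δ₁ := by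
  classical
  have : T2Space X := h.hausdorff.1
  have : T2Space Y := h.hausdorff.2
  have : T2Space X₁ := h₁.hausdorff.1
  have : T2Space Y₁ := h₁.hausdorff.2
  have : CompactSpace X := h.compact
  have : CompactSpace X₁ := h₁.compact
  have : ConnectedSpace X₁ := h₁.connected
  have : IsManifold 𝓘(ℂ, Cm (p + d)) ω X := h.manifold.1
  have : IsManifold 𝓘(ℂ, Cm p) ω Y := h.manifold.2
  have : IsManifold 𝓘(ℂ, Cm (p + d)) ω X₁ := h₁.manifold.1
  have : IsManifold 𝓘(ℂ, Cm p) ω Y₁ := h₁.manifold.2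
  have hsurj : Function.Surjective f₁ := fun y => (h₁.fibres y).nonempty
  have : PreconnectedSpace Y₁ := by
    rw [preconnectedSpace_iff_univ, ← hsurj.range_eq]
    exact isPreconnected_range h₁.hol.continuous
  have : Nonempty Y₁ := by
    obtain ⟨x⟩ : Nonempty X₁ := inferInstance
    exact ⟨f₁ x⟩
  obtain ⟨S₁, hS₁, hP⟩ := crit (p + d) p X₁ Y₁ f₁ h₁.hol h₁.fibres
  have hP₁ := hP S₁ subset_rfl hS₁.1
  by_cases hr : ∃ m, ∃ y ∉ S₁, TK.TE.NDegE (p + d) p d m r f₁ y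
  · obtain ⟨m, hr⟩ := hr
    -- the generic rank is at least `R`
    let P : ℕ → Prop := fun R => ∃ S : Set Y₁, S₁ ⊆ S ∧ IsSmallSet (Cm p) S ∧
      ∀ y ∉ S, TK.TE.NDegE (p + d) p d m R f₁ y
    have hPd : ∀ R, P R → R ≤ d := by
      rintro R ⟨S, -, hS, hN⟩
      obtain ⟨y, hy⟩ := (compl p Y₁ S hS).1.nonempty
      exact ndegE_le (hN y hy)
    have hPr : P r := by
      obtain ⟨S₂, h12, hS₂, hN⟩ := deg p d m r X₁ Y₁ f₁ S₁ w hd h₁.hol hsurj hP₁ hS₁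
        (compl p Y₁ S₁ hS₁).2 hw hr
      exact ⟨S₂, h12, hS₂, hN⟩
    have hR : P (Nat.findGreatest P d) := Nat.findGreatest_spec (hPd r hPr) hPr
    have hle : r ≤ Nat.findGreatest P d := Nat.le_findGreatest (hPd r hPr) hPr
    set R := Nat.findGreatest P d with hRdef
    obtain ⟨S₂, h12, hS₂, hN⟩ := hR
    have hP₂ := hP S₂ h12 hS₂.1
    have hN' : ∀ y ∉ S₂, ¬ TK.TE.NDegE (p + d) p d m (R + 1) f₁ y := by
      intro y hy hy'
      obtain ⟨S₃, h23, hS₃, hN'⟩ := deg p d m (R + 1) X₁ Y₁ f₁ S₂ w hd h₁.hol hsurj hP₂ hS₂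
        (compl p Y₁ S₂ hS₂).2 hw ⟨y, hy, hy'⟩
      have h3 : P (R + 1) := ⟨S₃, h12.trans h23, hS₃, hN'⟩
      have h4 := Nat.le_findGreatest (P := P) (hPd _ h3) h3
      omega
    have h1 := hfirst S₂ m R hS₂ hP₂ (compl p Y₁ S₂ hS₂).2 (compl p Y₁ S₂ hS₂).1.nonempty hN hN'
    refine ⟨fun _ => ∅, fun k => ?_, fun y hy F _ _ _ i hi hG => ?_⟩
    · exact ⟨isClosed_empty, fun x => ⟨fun _ => 1, contMDiffAt_const,
        fun h0 => one_ne_zero (h0.self_of_nhds),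
        Eventually.of_forall fun z hz => absurd hz (notMem_empty z)⟩⟩
    · refine le_trans (add_le_add ?_ le_rfl) h1
      exact_mod_cast hle
  · obtain ⟨S, H, hH, hmain⟩ := square gen img exc crit h h₁ hu hv hcomm hS₁ hP₁
    refine ⟨H, hH, fun y hy F _ _ _ i hi hG => ?_⟩
    obtain ⟨y₁, hsq⟩ := hmain y hy F i hi
    obtain ⟨m, hm⟩ := fibE p d r X Y X₁ Y₁ f f₁ u v S S₁ y y₁ F i hd hsq ab coreS hG
    exact absurd ⟨m, y₁, hsq.out₁, hm⟩ hr

/-- the first inequality, coverings of the fibres with Gauss maps of rank `r` -/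
theorem first_r (alb : TK.TE.AlbEStmt) (has : TK.TE.HasMStmt) (lift : TU.LiftTStmt)
    (tame : TU.TameOKStmt) {p d m r : ℕ} {X Y : Type} [TopologicalSpace X]
    [ChartedSpace (Cm (p + d)) X] [TopologicalSpace Y] [ChartedSpace (Cm p) Y] {f : X → Y}
    {Δ : Set X → ℝ} (hd : 0 < d) (h : H511.Surf.IsFibration (Cm (p + d)) (Cm p) f Δ)
    {w : Chart (p + d) X → Cm (p + d) → Matrix (Fin (p + d)) (Fin (p + d)) ℂ} (hw : IsKahler w)
    {S : Set Y} (hS : IsSmallSet (Cm p) S) (hP : IsProperFibration (n := p + d) (p := p) f S)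
    (hpre : IsPreconnected Sᶜ) (hne : Sᶜ.Nonempty)
    (hN : ∀ y ∉ S, TK.TE.NDegE (p + d) p d m r f y)
    (hN' : ∀ y ∉ S, ¬ TK.TE.NDegE (p + d) p d m (r + 1) f y) :
    ((r : ℕ∞) : WithBot ℕ∞) + TZ.S.kodF (p + d) p Δ (id : X → X) f ≤
      TZ.S.kodX (Cm (p + d)) Δ := by
  have : T2Space X := h.hausdorff.1
  have : T2Space Y := h.hausdorff.2
  have : CompactSpace X := h.compact
  have : ConnectedSpace X := h.connected
  have : IsManifold 𝓘(ℂ, Cm (p + d)) ω X := h.manifold.1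
  have : IsManifold 𝓘(ℂ, Cm p) ω Y := h.manifold.2
  obtain ⟨g, n, Q, ι, U, π, L, hA⟩ := alb p d m r X Y f S w hd h.hol hP hpre hw hN hN' hne
  have hr : r ≤ d := by
    obtain ⟨y, hy⟩ := hne
    exact ndegE_le (hN y hy)
  let e₀ : Cm (p + d) ≃L[ℂ] (Cm p × Cm d) := ContinuousLinearEquiv.ofFinrankEq (by
    simp)
  have hΔ0 : ∀ D, 0 ≤ Δ D := fun D => (snc01 (JB.snc h.snc) D).1
  refine first_of fun j₂ h₂ => ?_
  exact lift (p + d) p X Y (Cm d) (TU.KTame w) f S e₀ Δ r j₂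
    (tame (p + d) d X w hw.toIsHermitian) h.hol hS hP.submersive h.snc
    (fun y hy => has p d r n g X Y (TU.KTame w) f S Q ι U π L e₀ Δ hd hr h.hol hA hΔ0 y hy)
    h₂

/-- the first inequality for `f` itself -/
theorem teF (deg : TK.TE.DegEStmt) (ab : TK.ABStmt) (coreS : TK.TE.CoreStmt)
    (fibE : TK.TE.FibEStmt) (gen : TK.GenNStmt) (img : TK.ImgNStmt) (exc : ExcStmt)
    (crit : CritStmt) (compl : ComplStmt) (alb : TK.TE.AlbEStmt) (has : TK.TE.HasMStmt)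
    (lift : TU.LiftTStmt) (tame : TU.TameOKStmt)
    {p d r : ℕ} {X Y : Type} [TopologicalSpace X]
    [ChartedSpace (Cm (p + d)) X] [TopologicalSpace Y] [ChartedSpace (Cm p) Y] {f : X → Y}
    {Δ : Set X → ℝ} (hd : 0 < d) (h : H511.Surf.IsFibration (Cm (p + d)) (Cm p) f Δ)
    {w : Chart (p + d) X → Cm (p + d) → Matrix (Fin (p + d)) (Fin (p + d)) ℂ} (hw : IsKahler w) :
    ∃ H : ℕ → Set Y, (∀ k, IsThinSet (Cm p) (H k)) ∧ ∀ y, (∀ k, y ∉ H k) →
      ∀ (F : Type) [TopologicalSpace F] [T2Space F] [ChartedSpace (Cm d) F] (i : F → X),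
        H511.Surf.IsFibre (Cm (p + d)) (Cm d) f y i → TK.GaussRank d F r →
        ((r : ℕ∞) : WithBot ℕ∞) + TZ.S.kodF (p + d) p Δ (id : X → X) f ≤
          TZ.S.kodX (Cm (p + d)) Δ := by
  have : T2Space X := h.hausdorff.1
  have : T2Space Y := h.hausdorff.2
  have : IsManifold 𝓘(ℂ, Cm (p + d)) ω X := h.manifold.1
  have : IsManifold 𝓘(ℂ, Cm p) ω Y := h.manifold.2
  exact core deg ab coreS fibE gen img exc crit compl (r := r) hd h h modif_id modif_id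
    (fun x => rfl) hw fun S' m R hS' hP' hpre hne hN hN' =>
      first_r alb has lift tame hd h hw hS' hP' hpre hne hN hN'

/-- **EF**: `TEStmt` from the blocks -/
theorem te (deg : TK.TE.DegEStmt) (ab : TK.ABStmt) (coreS : TK.TE.CoreStmt)
    (fibE : TK.TE.FibEStmt) (gen : TK.GenNStmt) (img : TK.ImgNStmt) (exc : ExcStmt)
    (crit : CritStmt) (compl : ComplStmt) (fin : UF.FinStmt) (alb : TK.TE.AlbEStmt)
    (has : TK.TE.HasMStmt) (lift : TU.LiftTStmt) (tame : TU.TameOKStmt) : TK.TE.TEStmt := by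
  intro p d r X Y X₁ Y₁ _ _ _ _ _ _ _ _ f Δ f₁ Δ₁ hd h h₁ hs he ⟨w, hw⟩
  have hs' := hs
  obtain ⟨u, v, hu, hv, hcomm, -⟩ := hs'
  obtain ⟨H, hH, hmain⟩ := core deg ab coreS fibE gen img exc crit compl (r := r) hd h h₁ hu hv
    hcomm hw fun S' m R hS' hP' hpre hne hN hN' =>
      first_r alb has lift tame hd h₁ hw hS' hP' hpre hne hN hN'
  refine ⟨H, hH, fun y hy F _ _ _ i hi hG => ?_⟩
  exact fin (p + d) p X Y X₁ Y₁ f Δ f₁ Δ₁ h h₁ hs he _ (hmain y hy F i hi hG)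

end Vale.Agent.P281.H303.TE
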