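import Vale.Agent.P281.H303.UF.Cond
import Vale.Agent.P281.H76.Pull

/-!
# P281, project T-E (helper303): the Kodaira dimension of étale coverings of the fibres
-/

open Set Filter Metric Vale.Agent.P281 Vale.Agent.P281.H713
open Vale.Agent.P281.MF Vale.Agent.P281.ISO
open Vale.Agent.P281.H713.TZ Vale.Agent.P281.H64
open scoped Topology ContDiff Manifold

set_option linter.all false

noncomputable section

namespace Vale.Agent.P281.H303.TE

variable {n d : ℕ} {X F F' : Type} [TopologicalSpace X] [ChartedSpace (Cm n) X]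
    [TopologicalSpace F] [ChartedSpace (Cm d) F] [IsManifold 𝓘(ℂ, Cm d) ω F]
    [TopologicalSpace F'] [ChartedSpace (Cm d) F'] [IsManifold 𝓘(ℂ, Cm d) ω F']

/-- sections pull back to étale coverings -/
theorem isSection_cover {i : F → X} {π : F' → F} (hπ : ∀ t, HolM (Cm d) (Cm d) π t)
    {m : ℕ} {k : Set X → ℕ} {s : F → ℂ}
    (hs : J.IsSection (Cm d) (fun (D : Set X) t g => ∃ e, J.IsLocalEq (Cm n) D e (i t) ∧
      ∀ᶠ s in 𝓝 t, g s = e (i s)) m k s) :
    J.IsSection (Cm d) (fun (D : Set X) t g => ∃ e, J.IsLocalEq (Cm n) D e (i (π t)) ∧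
      ∀ᶠ s in 𝓝 t, g s = e (i (π s))) m k
      (fun t => s (π t) * (dM (Cm d) (Cm d) π t).det ^ m) := by
  intro z₀
  obtain ⟨T, g, a, hT, hg, ha, hev⟩ := hs (π z₀)
  have hcont := (hπ z₀).continuousAt
  obtain ⟨R, hR, hRe⟩ := H76.jac_local (E := Cm d)
    (φ := fun w => chartAt (Cm d) (π z₀) (π w)) (z := z₀)
    (HolV.comp (h := (chartAt (Cm d) (π z₀) : F → Cm d))
      (HolV.chart (mem_chart_source (Cm d) (π z₀))) (hπ z₀))
  refine ⟨T, fun D t => g D (π t), fun t => a (π t) * R t ^ m, hT, fun D hD => ?_, ?_, ?_⟩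
  · obtain ⟨e, he, hge⟩ := hg D hD
    exact ⟨e, he, hcont.eventually hge⟩
  · exact (HolV.comp (show HolV (Cm d) a (π z₀) from ha) (hπ z₀)).mul (hR.pow m)
  · filter_upwards [hcont.eventually hev, hRe, H76.jac_comp (hπ z₀)] with z h1 h2 h3 h4
    have h5 := h1 h4
    have h6 : jac (Cm d) (chartAt (Cm d) (π z₀)) (π z) * (dM (Cm d) (Cm d) π z).det =
        R z * jac (Cm d) (chartAt (Cm d) z₀) z := by rw [← h3, h2]
    show s (π z) * (dM (Cm d) (Cm d) π z).det ^ m * ∏ D ∈ T, g D (π z) ^ k D =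
      a (π z) * R z ^ m * jac (Cm d) (chartAt (Cm d) z₀) z ^ m
    have h7 : s (π z) * ∏ D ∈ T, g D (π z) ^ k D =
      a (π z) * jac (Cm d) (chartAt (Cm d) (π z₀)) (π z) ^ m := h5
    calc s (π z) * (dM (Cm d) (Cm d) π z).det ^ m * ∏ D ∈ T, g D (π z) ^ k D
        = (s (π z) * ∏ D ∈ T, g D (π z) ^ k D) * (dM (Cm d) (Cm d) π z).det ^ m := by ring
      _ = a (π z) * (jac (Cm d) (chartAt (Cm d) (π z₀)) (π z) *
          (dM (Cm d) (Cm d) π z).det) ^ m := by rw [h7, mul_pow]; ring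
      _ = _ := by rw [h6, mul_pow]; ring

/-- `κ(F, K_F + i^* Δ) ≤ κ(F', K_{F'} + (i ∘ π)^* Δ)` for étale coverings `π : F' → F` -/
theorem kodR_cover {i : F → X} {π : F' → F} (hπ : ∀ t, HolM (Cm d) (Cm d) π t)
    (hdet : ∀ t, (dM (Cm d) (Cm d) π t).det ≠ 0) (hsurj : Function.Surjective π)
    (Δ : Set X → ℝ) :
    TZ.S.kodR (Cm n) (Cm d) i Δ ≤ TZ.S.kodR (Cm n) (Cm d) (fun t => i (π t)) Δ := by
  classical
  unfold TZ.S.kodR J.kod
  refine iSup₂_le ?_
  rintro j ⟨m, k, s, z, hm, hk, hs, hz, hs0, hsu⟩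
  refine le_iSup₂_of_le j ?_ le_rfl
  obtain ⟨z', rfl⟩ := hsurj z
  refine ⟨m, k, fun b t => s b (π t) * (dM (Cm d) (Cm d) π t).det ^ m, z', hm, hk,
    fun b => isSection_cover hπ (hs b), fun D hD => ?_, mul_ne_zero hs0 (pow_ne_zero _ (hdet _)),
    ?_⟩
  · obtain ⟨g, ⟨e, he, hge⟩, hg0⟩ := hz D hD
    exact ⟨fun t => g (π t), ⟨e, he, (hπ z').continuousAt.eventually hge⟩, hg0⟩
  · have hdiff : ∀ b : Fin j, MDifferentiableAt 𝓘(ℂ, Cm d) 𝓘(ℂ, ℂ)
        (fun w => s (b + 1) w / s 0 w) (π z') := by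
      intro b
      by_contra hcon
      obtain ⟨ξ, hξ⟩ := hsu (Pi.single b 1)
      have h1 := congrFun hξ b
      have h2 : J.dif (Cm d) (fun w => s (b + 1) w / s 0 w) (π z') = 0 :=
        mfderiv_zero_of_not_mdifferentiableAt hcon
      simp only [h2, Pi.single_eq_same] at h1
      exact zero_ne_one h1
    have hratio : ∀ b : Fin j, (fun w => s (b + 1) (π w) * (dM (Cm d) (Cm d) π w).det ^ m /
        (s 0 (π w) * (dM (Cm d) (Cm d) π w).det ^ m)) =
        (fun w => s (b + 1) w / s 0 w) ∘ π := by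
      intro b
      funext w
      simp only [Function.comp]
      rw [mul_div_mul_right _ _ (pow_ne_zero _ (hdet w))]
    intro y
    obtain ⟨ξ, hξ⟩ := hsu y
    have hbij : Function.Surjective (dM (Cm d) (Cm d) π z') := (H308.Bir.bij_of_det_ne (hdet z')).2
    obtain ⟨η, hη⟩ := hbij ξ
    refine ⟨η, ?_⟩
    rw [← hξ]
    funext b
    show J.dif (Cm d) (fun w => s (b + 1) (π w) * (dM (Cm d) (Cm d) π w).det ^ m /
        (s 0 (π w) * (dM (Cm d) (Cm d) π w).det ^ m)) z' η = _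
    rw [hratio b]
    have h1 : J.dif (Cm d) ((fun w => s (b + 1) w / s 0 w) ∘ π) z' =
        (J.dif (Cm d) (fun w => s (b + 1) w / s 0 w) (π z')).comp (dM (Cm d) (Cm d) π z') :=
      mfderiv_comp z' (hdiff b) ((hπ z').mdifferentiableAt (by simp))
    rw [h1, ContinuousLinearMap.comp_apply, hη]

end Vale.Agent.P281.H303.TE
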